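import Vale.Agent.P281.Big
import Vale.Agent.P292.HC

/-! Regular values and regular points are dense; holomorphic functions are locally constant on
compact regular fibres. -/

open Set Filter Topology
open scoped Manifold ContDiff

noncomputable section

namespace Vale.Agent.P284

open Vale.Agent.P271 Vale.Agent.P271.Stmt Vale.Agent.P281 Vale.Agent.P292

theorem const_on {X : Type} [TopologicalSpace X] {F : Set X} (hF : IsCompact F) (hc : IsClosed F)
    {h : X → ℂ} (hh : ContinuousOn h F)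
    (hp : ∀ x ∈ F, ∃ (k : ℕ) (ψ : (Fin k → ℂ) → X) (q : X → Fin k → ℂ), ContinuousAt q x ∧
      (∀ᶠ y in 𝓝 x, y ∈ F → ψ (q y) = y) ∧
      ∀ᶠ t in 𝓝 (q x), ψ t ∈ F ∧ ContinuousAt ψ t ∧ AnalyticAt ℂ (h ∘ ψ) t) :
    ∀ x ∈ F, ∀ᶠ y in 𝓝 x, y ∈ F → h y = h x := by
  by_contra h0
  push Not at h0
  have h1 : IsClosed {x ∈ F | ¬ ∀ᶠ y in 𝓝 x, y ∈ F → h y = h x} := by
    refine isOpen_compl_iff.1 (isOpen_iff_eventually.2 fun x hx => ?_)
    by_cases h2 : x ∈ F
    · have h3 : ∀ᶠ y in 𝓝 x, y ∈ F → h y = h x := by_contra fun e => hx ⟨h2, e⟩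
      filter_upwards [h3, h3.eventually_nhds] with y h4 h5 h6
      exact h6.2 (by rwa [h4 h6.1])
    · filter_upwards [hc.isOpen_compl.mem_nhds h2] with y h4 h5
      exact h4 h5.1
  obtain ⟨x, hx, hm⟩ := (hF.of_isClosed_subset h1 fun x hx => hx.1).exists_isMaxOn
    (by obtain ⟨x, h2, h3⟩ := h0; exact ⟨x, h2, by simpa using h3⟩)
    (hh.norm.mono fun x hx => hx.1)
  obtain ⟨k, ψ, q, hq, h2, h3⟩ := hp x hx.1
  have h4 : ψ (q x) = x := h2.self_of_nhds hx.1
  obtain ⟨r, hr, hB⟩ := Metric.eventually_nhds_iff_ball.1 h3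
  refine hx.2 ?_
  suffices h5 : ∀ᶠ t in 𝓝 (q x), (h ∘ ψ) t = (h ∘ ψ) (q x) by
    filter_upwards [hq.eventually h5, h2] with y h6 h7 h8
    rwa [Function.comp_apply, Function.comp_apply, h7 h8, h4] at h6
  by_cases h5 : ∃ t ∈ Metric.ball (q x) r, ∀ᶠ y in 𝓝 (ψ t), y ∈ F → h y = h (ψ t)
  · obtain ⟨t, ht, h6⟩ := h5
    have h7 := AnalyticOnNhd.eqOn_of_preconnected_of_eventuallyEq (fun t ht => (hB t ht).2.2)
      (analyticOnNhd_const (v := h (ψ t))) (convex_ball _ _).isPreconnected ht (by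
        filter_upwards [(hB t ht).2.1.eventually h6, Metric.isOpen_ball.mem_nhds ht] with s a1 a2
        exact a1 (hB s a2).1)
    filter_upwards [Metric.ball_mem_nhds _ hr] with s hs
    rw [h7 hs, h7 (Metric.mem_ball_self hr)]
  · refine Complex.eventually_eq_of_isLocalMax_norm (h3.mono fun t ht => ht.2.2.differentiableAt) ?_
    filter_upwards [Metric.ball_mem_nhds _ hr] with s hs
    have := hm (show ψ s ∈ {x ∈ F | ¬ ∀ᶠ y in 𝓝 x, y ∈ F → h y = h x} from
      ⟨(hB s hs).1, fun e => h5 ⟨s, hs, e⟩⟩)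
    simpa [h4] using this

variable {n m : ℕ} {X Y : Type} [TopologicalSpace X] [ChartedSpace (Fin n → ℂ) X]
  [TopologicalSpace Y] [ChartedSpace (Fin m → ℂ) Y] [IsManifold 𝓘(ℂ, Fin n → ℂ) ω X]

omit [IsManifold 𝓘(ℂ, Fin n → ℂ) ω X] in
theorem dense_of_loc [ConnectedSpace X] {S : Set X} (h0 : ∃ x, x ∉ S)
    (h : ∀ p : X, ∃ (J : Type) (F : J → (Fin n → ℂ) → ℂ), ∀ᶠ w in 𝓝 (chartAt (Fin n → ℂ) p p),
      (∀ j, AnalyticAt ℂ (F j) w) ∧ ((chartAt (Fin n → ℂ) p).symm w ∈ S ↔ ∀ j, F j w = 0)) :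
    Dense Sᶜ := by
  rw [← interior_eq_empty_iff_dense_compl]
  have h1 : IsClopen (interior S) := by
    refine ⟨isClosed_of_closure_subset fun p hp => ?_, isOpen_interior⟩
    obtain ⟨J, F, hF⟩ := h p
    have ha := mem_chart_source (Fin n → ℂ) p
    obtain ⟨r, hr, hB⟩ := Metric.eventually_nhds_iff_ball.1 hF
    have hO : {x | x ∈ (chartAt (Fin n → ℂ) p).source ∧ chartAt (Fin n → ℂ) p x ∈
        Metric.ball (chartAt (Fin n → ℂ) p p) r} ∈ 𝓝 p :=
      inter_mem ((chartAt (Fin n → ℂ) p).open_source.mem_nhds ha)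
        (((chartAt (Fin n → ℂ) p).continuousAt ha).eventually (Metric.ball_mem_nhds _ hr))
    obtain ⟨x, hx, hxW⟩ := mem_closure_iff_nhds.1 hp _ hO
    refine mem_interior_iff_mem_nhds.2 ?_
    filter_upwards [hO] with y hy
    rw [← (chartAt (Fin n → ℂ) p).left_inv hy.1]
    refine (hB _ hy.2).2.2 fun j => ?_
    refine AnalyticOnNhd.eqOn_zero_of_preconnected_of_eventuallyEq_zero
      (fun w hw => (hB w hw).1 j) (convex_ball _ _).isPreconnected hx.2 ?_ hy.2
    filter_upwards [ev_chart hx.1 (mem_interior_iff_mem_nhds.1 hxW),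
      Metric.isOpen_ball.mem_nhds hx.2] with w h4 h5
    exact (hB w h5).2.1 h4 j
  rcases isClopen_iff.1 h1 with h2 | h2
  · exact h2
  · obtain ⟨x, hx⟩ := h0
    exact absurd (interior_subset (h2 ▸ mem_univ x : x ∈ interior S)) hx

theorem trans_surj {a b p : X} (ha : p ∈ (chartAt (Fin n → ℂ) a).source)
    (hb : p ∈ (chartAt (Fin n → ℂ) b).source) :
    Function.Surjective (fderiv ℂ (loc n n id a b) (chartAt (Fin n → ℂ) a p)) :=
  LinearMap.injective_iff_surjective.1 (LinearMap.ker_eq_bot.1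
    (not_not.1 (mt LinearMap.det_eq_zero_iff_ker_ne_bot.2 (canonical_ne a b ha hb))))

variable [IsManifold 𝓘(ℂ, Fin m → ℂ) ω Y] {f : X → Y}

theorem loc_surj (hf : MDifferentiable 𝓘(ℂ, Fin n → ℂ) 𝓘(ℂ, Fin m → ℂ) f) {a a' p : X} {b b' : Y}
    (ha : p ∈ (chartAt (Fin n → ℂ) a).source) (hb : f p ∈ (chartAt (Fin m → ℂ) b).source)
    (ha' : p ∈ (chartAt (Fin n → ℂ) a').source) (hb' : f p ∈ (chartAt (Fin m → ℂ) b').source)
    (h : Function.Surjective (fderiv ℂ (loc n m f a b) (chartAt (Fin n → ℂ) a p))) :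
    Function.Surjective (fderiv ℂ (loc n m f a' b') (chartAt (Fin n → ℂ) a' p)) := by
  have h1 := loc_comp mdifferentiable_id hf ha' ha hb'
  have h2 := loc_comp hf mdifferentiable_id ha hb hb'
  rw [Function.comp_id] at h1
  rw [Function.id_comp] at h2
  rw [h1, id, h2]
  exact ((trans_surj hb hb').comp h).comp (trans_surj ha' ha)

theorem surj_iff (hm : 1 ≤ m) (A : (Fin n → ℂ) →L[ℂ] Fin m → ℂ) :
    ¬ Function.Surjective A ↔ Module.finrank ℂ A.range ≤ m - 1 := by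
  have h1 := Submodule.finrank_le A.range
  have h2 := Submodule.eq_top_iff_finrank_eq (W := A.range)
  rw [Module.finrank_fin_fun] at h1 h2
  rw [← (h2.symm.trans LinearMap.range_eq_top : _ ↔ Function.Surjective A)]
  omega

variable (n m f) in
/-- Regular points. -/
def Reg (p : X) : Prop :=
  Function.Surjective (fderiv ℂ (loc n m f p (f p)) (chartAt (Fin n → ℂ) p p))

theorem reg_iff (hf : MDifferentiable 𝓘(ℂ, Fin n → ℂ) 𝓘(ℂ, Fin m → ℂ) f) {a p : X} {b : Y}
    (ha : p ∈ (chartAt (Fin n → ℂ) a).source) (hb : f p ∈ (chartAt (Fin m → ℂ) b).source) :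
    Reg n m f p ↔ Function.Surjective (fderiv ℂ (loc n m f a b) (chartAt (Fin n → ℂ) a p)) :=
  ⟨loc_surj hf (mem_chart_source _ _) (mem_chart_source _ _) ha hb,
    loc_surj hf ha hb (mem_chart_source _ _) (mem_chart_source _ _)⟩

theorem sard [CompactSpace X] (hm : 1 ≤ m)
    (hf : MDifferentiable 𝓘(ℂ, Fin n → ℂ) 𝓘(ℂ, Fin m → ℂ) f) (b : Y) :
    Dense {w | ∀ p, f p ∈ (chartAt (Fin m → ℂ) b).source → chartAt (Fin m → ℂ) b (f p) = w →
      Reg n m f p} := by
  obtain ⟨T, -, hT⟩ := isCompact_univ.elim_nhds_subcover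
    (fun p : X => (chartAt (Fin n → ℂ) p).source) fun p _ => chart_source_mem_nhds _ p
  have h1 : ∀ a : T, Small (m - 1) (loc n m f a b '' {z ∈ (chartAt (Fin n → ℂ) a.1).target ∩
      (chartAt (Fin n → ℂ) a.1).symm ⁻¹' (f ⁻¹' (chartAt (Fin m → ℂ) b).source) |
      Module.finrank ℂ (fderiv ℂ (loc n m f a b) z).range ≤ m - 1}) := fun a => by
    refine small_crit _ ((chartAt (Fin n → ℂ) a.1).symm.isOpen_inter_preimage
      ((chartAt (Fin m → ℂ) b).open_source.preimage hf.continuous)) fun z hz => ?_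
    have := loc_analytic hf ((chartAt (Fin n → ℂ) a.1).map_target hz.1) hz.2
    rwa [(chartAt (Fin n → ℂ) a.1).right_inv hz.1] at this
  refine ((Small.iUnion h1).dense_compl (by rw [Module.finrank_fin_fun]; omega)).mono
    fun w hw p hb hp => by_contra fun h2 => notMem_of_mem_compl hw ?_
  obtain ⟨a, ha, h3⟩ := mem_iUnion₂.1 (hT (mem_univ p))
  refine mem_iUnion.2 ⟨⟨a, ha⟩, chartAt (Fin n → ℂ) a p,
    ⟨⟨(chartAt (Fin n → ℂ) a).map_source h3, ?_⟩, ?_⟩, (loc_apply f b h3).trans hp⟩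
  · rwa [mem_preimage, (chartAt (Fin n → ℂ) a).left_inv h3]
  · exact (surj_iff hm _).1 (mt (reg_iff hf h3 hb).2 h2)

theorem dense_reg [CompactSpace X] [ConnectedSpace X] (hm : 1 ≤ m)
    (hf : MDifferentiable 𝓘(ℂ, Fin n → ℂ) 𝓘(ℂ, Fin m → ℂ) f) (hs : Function.Surjective f) :
    Dense {p | Reg n m f p} := by
  rw [← compl_compl {p | Reg n m f p}]
  refine dense_of_loc (n := n) ?_ fun p => ?_
  · obtain ⟨x⟩ : Nonempty X := inferInstance
    obtain ⟨w, h1, h2⟩ := (sard hm hf (f x)).inter_nhds_nonempty (chart_target_mem_nhds _ (f x))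
    obtain ⟨p, hp⟩ := hs ((chartAt (Fin m → ℂ) (f x)).symm w)
    exact ⟨p, not_not.2 (h1 p (hp ▸ (chartAt (Fin m → ℂ) (f x)).map_target h2)
      (hp ▸ (chartAt (Fin m → ℂ) (f x)).right_inv h2))⟩
  have ha := mem_chart_source (Fin n → ℂ) p
  have hb := mem_chart_source (Fin m → ℂ) (f p)
  refine ⟨(Fin (m - 1 + 1) → (Fin m → ℂ) →L[ℂ] ℂ) × (Fin (m - 1 + 1) → Fin n → ℂ), fun j y =>
    (Matrix.of fun i k => j.1 i (fderiv ℂ (loc n m f p (f p)) y (j.2 k))).det, ?_⟩
  filter_upwards [(loc_analytic hf ha hb).fderiv.eventually_analyticAt, chart_target_mem_nhds _ p,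
    ev_chart ha (hf.continuous.continuousAt.eventually (chart_source_mem_nhds (Fin m → ℂ) (f p)))]
    with w h1 h2 h3
  refine ⟨fun j => ?_, ?_⟩
  · simp only [Matrix.det_apply', Matrix.of_apply]
    refine Finset.analyticAt_fun_sum _ fun σ _ => analyticAt_const.mul
      (Finset.analyticAt_fun_prod _ fun i _ => ?_)
    exact (((j.1 (σ i)).comp (ContinuousLinearMap.apply ℂ _ (j.2 i))).analyticAt _).comp h1
  · rw [mem_compl_iff, mem_ofPred_eq, reg_iff hf ((chartAt (Fin n → ℂ) p).map_target h2) h3,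
      (chartAt (Fin n → ℂ) p).right_inv h2, surj_iff hm, hc_det, Prod.forall]

theorem fibre_const [CompactSpace X] [T2Space Y]
    (hf : MDifferentiable 𝓘(ℂ, Fin n → ℂ) 𝓘(ℂ, Fin m → ℂ) f) {y : Y}
    (hy : ∀ p, f p = y → Reg n m f p) {U : Set X} (hU : IsOpen U) (hs : f ⁻¹' {y} ⊆ U) {h : X → ℂ}
    (hh : Hol n h U) : ∀ x, f x = y → ∀ᶠ p in 𝓝 x, f p = y → h p = h x := by
  have hc : IsClosed (f ⁻¹' {y}) := isClosed_singleton.preimage hf.continuous
  refine const_on hc.isCompact hc (hh.continuousOn.mono hs) fun x hx => ?_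
  have ha := mem_chart_source (Fin n → ℂ) x
  have hb := mem_chart_source (Fin m → ℂ) (f x)
  have h1 := loc_analytic hf ha hb
  obtain ⟨k, hk⟩ := Nat.exists_eq_add_of_le (LinearMap.finrank_le_finrank_of_surjective
    (f := (fderiv ℂ (loc n m f x (f x)) (chartAt (Fin n → ℂ) x x)).toLinearMap) (hy x hx))
  obtain ⟨q, Ψ, h2, h3, h4⟩ := HAX_straight h1 (hy x hx) hk
  set z := chartAt (Fin n → ℂ) x x with hz
  have h5 : AnalyticAt ℂ (fun t => Ψ (loc n m f x (f x) z, t)) (q z) :=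
    h2.comp_of_eq (analyticAt_const.prod analyticAt_id) rfl
  have h6 : Tendsto (fun t => Ψ (loc n m f x (f x) z, t)) (𝓝 (q z)) (𝓝 z) := by
    have := h5.continuousAt.tendsto
    rwa [h3.self_of_nhds] at this
  refine ⟨k, fun t => (chartAt (Fin n → ℂ) x).symm (Ψ (loc n m f x (f x) z, t)),
    fun p => q (chartAt (Fin n → ℂ) x p),
    q.continuous.continuousAt.comp ((chartAt (Fin n → ℂ) x).continuousAt ha), ?_, ?_⟩
  · filter_upwards [((chartAt (Fin n → ℂ) x).continuousAt ha).eventually h3,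
      chart_source_mem_nhds (Fin n → ℂ) x] with p a1 a2 a3
    rw [loc_apply f _ a2, a3.trans (Eq.symm hx), ← loc_apply f _ ha] at a1
    rw [a1, (chartAt (Fin n → ℂ) x).left_inv a2]
  · filter_upwards [h5.eventually_analyticAt, h6.eventually (chart_target_mem_nhds _ x),
      h6.eventually (analyticAt_chart hU hh x (hs hx) ha).eventually_analyticAt,
      h6.eventually (ev_chart ha (hf.continuous.continuousAt.eventually
        (chart_source_mem_nhds (Fin m → ℂ) (f x)))),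
      (continuous_const.prodMk continuous_id).continuousAt.eventually h4] with t a1 a2 a3 a4 a5
    refine ⟨?_, ((chartAt (Fin n → ℂ) x).continuousAt_symm a2).comp_of_eq a1.continuousAt rfl,
      a3.comp_of_eq a1 rfl⟩
    exact ((chartAt (Fin m → ℂ) (f x)).injOn a4 hb (a5.trans (loc_apply f _ ha))).trans hx

end Vale.Agent.P284
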