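import Vale.Agent.P281.Stmt

/-! Special manifolds in the sense of Campana. -/

open scoped Manifold

noncomputable section

namespace Vale.Agent.P284

open Vale.Agent.P271.Stmt Vale.Agent.P281

section

variable (V : Type) [NormedAddCommGroup V] [NormedSpace ℂ V] (X : Type) [TopologicalSpace X]
  [ChartedSpace V X]

/-- Fields of alternating complex `p`-linear forms on the tangent spaces. -/
abbrev Form (p : ℕ) : Type := ∀ x : X, TangentSpace 𝓘(ℂ, V) x [⋀^Fin p]→ₗ[ℂ] ℂ

variable {X}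

/-- The form is holomorphic on `U`: its coefficients in every chart are holomorphic. -/
def HolForm {p : ℕ} (w : Form V X p) (U : Set X) : Prop :=
  ∀ (a : X) (v : Fin p → V), DifferentiableOn ℂ
    (fun z => w ((chartAt V a).symm z) fun i => mfderiv 𝓘(ℂ, V) 𝓘(ℂ, V) (chartAt V a).symm z (v i))
    ((chartAt V a).target ∩ (chartAt V a).symm ⁻¹' U)

/-- There is a nonzero morphism from `L` to the sheaf of holomorphic `p`-forms; `w i` is the image
of the local frame of `L` over `U i`. -/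
def MapsToForms (L : Cocycle X) (p : ℕ) : Prop :=
  ∃ w : L.ι → Form V X p, (∀ i, HolForm V (w i) (L.U i)) ∧
    (∀ i j, ∀ x ∈ L.U i ∩ L.U j, w j x = L.g i j x • w i x) ∧ ∃ i, ∃ x ∈ L.U i, w i x ≠ 0

end

/-- There is no Bogomolov sheaf. -/
def Special (n : ℕ) (X : Type) [TopologicalSpace X] [ChartedSpace (Fin n → ℂ) X] : Prop :=
  ¬ ∃ (p : ℕ) (L : Cocycle X), 1 ≤ p ∧ p ≤ n ∧ IsLineBundle n L ∧
    kappa n L = ((p : ℕ∞) : WithBot ℕ∞) ∧ MapsToForms (Fin n → ℂ) L p

/-- The group has an abelian subgroup of finite index. -/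
def VirtAb (G : Type) [Group G] : Prop :=
  ∃ H : Subgroup G, H.FiniteIndex ∧ ∀ a ∈ H, ∀ b ∈ H, a * b = b * a

end Vale.Agent.P284
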