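import Vale.Agent.P284.Fib
import Vale.Agent.P284.Stmt

/-! The pull-back of the canonical bundle of a canonically polarised base is a Bogomolov sheaf. -/

open Set Filter Topology
open scoped Manifold ContDiff

noncomputable section

namespace Vale.Agent.P284

open Vale.Agent.P271 Vale.Agent.P271.Stmt Vale.Agent.P281 Vale.Agent.P292

/-- The pull-back of a line bundle. -/
def comap {X Y : Type} (f : X → Y) (L : Cocycle Y) : Cocycle X where
  ι := L.ι
  U i := f ⁻¹' L.U i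
  g i j p := L.g i j (f p)

variable {n m : ℕ} {X Y : Type} [TopologicalSpace X] [ChartedSpace (Fin n → ℂ) X]
  [TopologicalSpace Y] [ChartedSpace (Fin m → ℂ) Y] {f : X → Y}

theorem diff_eq {h : X → ℂ} {p : X} (hh : MDifferentiableAt 𝓘(ℂ, Fin n → ℂ) 𝓘(ℂ, ℂ) h p) :
    diff n h p = fderiv ℂ (h ∘ (chartAt (Fin n → ℂ) p).symm) (chartAt (Fin n → ℂ) p p) := by
  funext v
  rw [diff, hh.mfderiv]
  simp [writtenInExtChartAt]
  rfl

theorem comap_line (hf : MDifferentiable 𝓘(ℂ, Fin n → ℂ) 𝓘(ℂ, Fin m → ℂ) f) {L : Cocycle Y}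
    (hL : IsLineBundle m L) : IsLineBundle n (comap f L) :=
  ⟨fun i => (hL.isOpen i).preimage hf.continuous, fun p => hL.cover (f p),
    fun i j => (hL.hol i j).comp hf.mdifferentiableOn fun _ h => h,
    fun i j p hp => hL.ne i j (f p) hp, fun i j k p hp => hL.cocycle i j k (f p) hp⟩

variable [IsManifold 𝓘(ℂ, Fin n → ℂ) ω X] [IsManifold 𝓘(ℂ, Fin m → ℂ) ω Y]

theorem canonical_line : IsLineBundle n (canonical n X) :=
  ⟨fun a : X => (chartAt (Fin n → ℂ) a).open_source, fun p => ⟨p, mem_chart_source _ p⟩,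
    fun (a b : X) => hol_of_chart fun p hp => ⟨p, mem_chart_source _ p,
      BrP_analyticAt_canonical a b p hp.1 hp.2 (mem_chart_source _ p)⟩,
    fun (a b : X) _ hp => canonical_ne a b hp.1 hp.2,
    fun (a b c : X) _ hp => canonical_cocycle a b c hp.1.1 hp.1.2 hp.2⟩

theorem rank_le {A : (Fin n → ℂ) →L[ℂ] Fin m → ℂ} (hA : Function.Surjective A) {r : ℕ}
    {B : Fin r → (Fin n → ℂ) →L[ℂ] ℂ} (hB : LinearIndependent ℂ B)
    (h : ∀ k v, A v = 0 → B k v = 0) : r ≤ m := by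
  obtain ⟨j, hj⟩ := A.toLinearMap.exists_rightInverse_of_surjective (LinearMap.range_eq_top.2 hA)
  have h1 : LinearIndependent ℂ fun k => (B k).toLinearMap.comp j := by
    rw [Fintype.linearIndependent_iff] at hB ⊢
    refine fun c hc => hB c (ContinuousLinearMap.ext fun v => ?_)
    have h2 := LinearMap.congr_fun hc (A v)
    have h3 : ∀ k, B k (j (A v)) = B k v := fun k => by
      rw [← sub_eq_zero, ← map_sub]
      exact h k _ (by rw [map_sub, sub_eq_zero]; exact LinearMap.congr_fun hj (A v))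
    simpa [h3] using h2
  have h2 := h1.fintype_card_le_finrank
  rwa [Fintype.card_fin, Module.finrank_linearMap_self, Module.finrank_fin_fun] at h2

theorem ker_le {G : (Fin n → ℂ) → Fin m → ℂ} {H : (Fin n → ℂ) → ℂ} {z : Fin n → ℂ}
    (hG : AnalyticAt ℂ G z) (hH : AnalyticAt ℂ H z) (hs : Function.Surjective (fderiv ℂ G z))
    (h : ∀ᶠ w in 𝓝 z, G w = G z → H w = H z) {v : Fin n → ℂ} (hv : fderiv ℂ G z v = 0) :
    fderiv ℂ H z v = 0 := by
  by_contra h0
  have h1 := (hG.hasStrictFDerivAt.prodMk hH.hasStrictFDerivAt).map_nhds_eq_of_surj (by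
    refine LinearMap.range_eq_top.2 fun x => ?_
    obtain ⟨u, hu⟩ := hs x.1
    refine ⟨u + ((x.2 - fderiv ℂ H z u) / fderiv ℂ H z v) • v, Prod.ext ?_ ?_⟩
    · simp [hu, hv]
    · simp [h0])
  have h2 : ∀ᶠ x in 𝓝 (G z, H z), x.1 = G z → x.2 = H z := by
    rw [← h1]
    exact h
  have h3 : ∀ᶠ c in 𝓝 (H z), c = H z :=
    ((continuous_const.prodMk continuous_id).continuousAt.eventually h2).mono fun c hc => hc rfl
  obtain ⟨c, h4, h5⟩ := ((h3.filter_mono nhdsWithin_le_nhds).and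
    (self_mem_nhdsWithin (s := {H z}ᶜ))).exists
  exact h5 h4

theorem kappa_comap_le [CompactSpace X] [ConnectedSpace X] [T2Space Y] (hm : 1 ≤ m)
    (hf : MDifferentiable 𝓘(ℂ, Fin n → ℂ) 𝓘(ℂ, Fin m → ℂ) f) (hs : Function.Surjective f)
    {L : Cocycle Y} (hL : IsLineBundle m L) :
    kappa n (comap f L) ≤ ((m : ℕ∞) : WithBot ℕ∞) := by
  refine iSup_le fun l => iSup_le fun r => iSup_le ?_
  rintro ⟨-, t, s, ht, hs', i, p, hp, h0, h1⟩
  suffices h : r ≤ m by exact_mod_cast h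
  have hU : IsOpen (f ⁻¹' L.U i) := (hL.isOpen i).preimage hf.continuous
  have ha := mem_chart_source (Fin n → ℂ) p
  have hb := mem_chart_source (Fin m → ℂ) (f p)
  set φ := chartAt (Fin n → ℂ) p with hφ
  have h2 : ∀ k, AnalyticAt ℂ ((fun q => s k i q / t i q) ∘ φ.symm) (φ p) := fun k =>
    (analyticAt_chart hU ((hs' k).1 i) p hp ha).div (analyticAt_chart hU (ht.1 i) p hp ha)
      (by rw [← φ.left_inv ha] at h0; exact h0)
  have h3 : LinearIndependent ℂ fun k => fderiv ℂ ((fun q => s k i q / t i q) ∘ φ.symm) (φ p) := by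
    refine LinearIndependent.of_comp (LinearMap.pi fun v => (ContinuousLinearMap.apply ℂ ℂ v :
      ((Fin n → ℂ) →L[ℂ] ℂ) →L[ℂ] ℂ).toLinearMap) ?_
    have h4 : ∀ k, MDifferentiableAt 𝓘(ℂ, Fin n → ℂ) 𝓘(ℂ, ℂ) (fun q => s k i q / t i q) p :=
      fun k => by
      simp only [div_eq_mul_inv]
      exact (((hs' k).1 i p hp).mdifferentiableAt (hU.mem_nhds hp)).mul
        ((differentiableAt_inv h0).comp_mdifferentiableAt
          ((ht.1 i p hp).mdifferentiableAt (hU.mem_nhds hp)))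
    simp only [diff_eq (h4 _)] at h1
    exact h1
  have h4 : ∀ᶠ x in 𝓝 p, x ∈ φ.source ∧ f x ∈ (chartAt (Fin m → ℂ) (f p)).source ∧ f x ∈ L.U i ∧
      (∀ k, AnalyticAt ℂ ((fun q => s k i q / t i q) ∘ φ.symm) (φ x)) ∧
      LinearIndependent ℂ fun k => fderiv ℂ ((fun q => s k i q / t i q) ∘ φ.symm) (φ x) :=
    (φ.open_source.eventually_mem ha).and ((hf.continuous.continuousAt.eventually
      (chart_source_mem_nhds _ (f p))).and ((hU.eventually_mem hp).and
      ((φ.continuousAt ha).eventually ((eventually_all.2 fun k => (h2 k).eventually_analyticAt).and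
      ((continuousAt_pi.2 fun k => (h2 k).fderiv.continuousAt).eventually h3.eventually)))))
  obtain ⟨x, h5, h6⟩ := (dense_reg hm hf hs).inter_nhds_nonempty h4.eventually_nhds
  have h7 := h6.self_of_nhds
  have h8 := (loc_analytic hf h7.1 h7.2.1).hasStrictFDerivAt.map_nhds_eq_of_surj
    (LinearMap.range_eq_top.2 ((reg_iff hf h7.1 h7.2.1).1 h5))
  obtain ⟨_, h9, z, ⟨a1, a2, a3, a4, a5, a6⟩, rfl⟩ := (sard hm hf (f p)).inter_nhds_nonempty
    (h8 ▸ image_mem_map ((φ.open_target.eventually_mem (φ.map_source h7.1)).and (ev_chart h7.1 h6)))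
  have b1 : ∀ q, f q = f (φ.symm z) → Reg n m f q := fun q hq => h9 q (hq ▸ a3) (by rw [hq]; rfl)
  have b2 : f ⁻¹' {f (φ.symm z)} ⊆ f ⁻¹' L.U i := fun q (hq : f q = _) => by
    rw [mem_preimage, hq]
    exact a4
  have b3 := (reg_iff hf a2 a3).1 (b1 _ rfl)
  refine rank_le b3 a6 fun k v hv => ker_le (loc_analytic hf a2 a3) (a5 k) b3 ?_ hv
  filter_upwards [ev_chart a2 (fibre_const hf b1 hU b2 (ht.1 i) _ rfl),
    ev_chart a2 (fibre_const hf b1 hU b2 ((hs' k).1 i) _ rfl), ev_chart a2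
    (hf.continuous.continuousAt.eventually ((chartAt (Fin m → ℂ) (f p)).open_source.mem_nhds a3))]
    with w c1 c2 c3 c4
  have c5 := (chartAt (Fin m → ℂ) (f p)).injOn c3 a3 (c4.trans (loc_apply f _ a2))
  simp only [Function.comp_apply]
  rw [c1 c5, c2 c5, φ.left_inv a2]

omit [IsManifold 𝓘(ℂ, Fin n → ℂ) ω X] [IsManifold 𝓘(ℂ, Fin m → ℂ) ω Y] in
theorem le_kappa_comap (hf : MDifferentiable 𝓘(ℂ, Fin n → ℂ) 𝓘(ℂ, Fin m → ℂ) f) {p : X}
    (hp : Reg n m f p) {L : Cocycle Y} (hL : IsLineBundle m L) (hA : Ample m L) :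
    ((m : ℕ∞) : WithBot ℕ∞) ≤ kappa n (comap f L) := by
  obtain ⟨l, hl, M, s, hs, h0, -, h1⟩ := hA
  obtain ⟨i, hi⟩ := hL.cover (f p)
  obtain ⟨k0, hk0⟩ := h0 i (f p) hi
  have h2 : ∀ k, IsSection n (power (comap f L) l) fun i q => s k i (f q) := fun k =>
    ⟨fun i => ((hs k).1 i).comp hf.mdifferentiableOn fun _ h => h,
      fun i j q hq => (hs k).2 i j (f q) hq⟩
  have h3 : ∀ k, MDifferentiableAt 𝓘(ℂ, Fin m → ℂ) 𝓘(ℂ, ℂ) (s k i) (f p) := fun k =>
    ((hs k).1 i (f p) hi).mdifferentiableAt ((hL.isOpen i).mem_nhds hi)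
  let A : Fin M → (Fin n → ℂ) →L[ℂ] ℂ := fun k => mfderiv 𝓘(ℂ, Fin n → ℂ) 𝓘(ℂ, ℂ)
    (fun y => s k i (f y) / s k0 i (f y)) p
  obtain ⟨j, hj⟩ := (fderiv ℂ (loc n m f p (f p))
    (chartAt (Fin n → ℂ) p p)).toLinearMap.exists_rightInverse_of_surjective
    (LinearMap.range_eq_top.2 hp)
  obtain ⟨e, he⟩ := exists_indep (fun k => (A k).toLinearMap.comp j) fun v hv => by
    have h4 := ratio_ker hf h3 (h1 i (f p) hi) hk0 hv
    rw [← loc_self hf p] at h4
    exact (LinearMap.congr_fun hj v).symm.trans h4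
  refine le_kappa hl ⟨_, _, h2 k0, fun k => h2 (e k), i, p, hi, hk0, ?_⟩
  exact (LinearIndependent.of_comp (LinearMap.lcomp ℂ ℂ j) he).map'
    (LinearMap.ltoFun ℂ (Fin n → ℂ) ℂ ℂ) (LinearMap.ker_eq_bot.2 DFunLike.coe_injective)

theorem mfderiv_symm {a : X} {z : Fin n → ℂ} (hz : z ∈ (chartAt (Fin n → ℂ) a).target) :
    mfderiv 𝓘(ℂ, Fin n → ℂ) 𝓘(ℂ, Fin n → ℂ) (chartAt (Fin n → ℂ) a).symm z =
      fderiv ℂ (loc n n id a ((chartAt (Fin n → ℂ) a).symm z)) z := by
  rw [(mdifferentiableAt_atlas_symm (I := 𝓘(ℂ, Fin n → ℂ)) (chart_mem_atlas _ a) hz).mfderiv]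
  simp [writtenInExtChartAt, loc, chartAt_self_eq]
  rfl

theorem maps_comap (hf : MDifferentiable 𝓘(ℂ, Fin n → ℂ) 𝓘(ℂ, Fin m → ℂ) f) {p : X}
    (hp : Reg n m f p) : MapsToForms (Fin n → ℂ) (comap f (canonical m Y)) m := by
  refine ⟨fun (b : Y) x => (Pi.basisFun ℂ (Fin m)).det.compLinearMap
    (fderiv ℂ (loc n m f x b) (chartAt (Fin n → ℂ) x x)).toLinearMap, fun (b : Y) a v z hz => ?_,
    fun (b b' : Y) x hx => ?_, f p, p, mem_chart_source _ _, fun h => ?_⟩
  · have h1 : ∀ w ∈ (chartAt (Fin n → ℂ) a).target ∩ (chartAt (Fin n → ℂ) a).symm ⁻¹'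
        (f ⁻¹' (chartAt (Fin m → ℂ) b).source), ∀ u, fderiv ℂ (loc n m f
          ((chartAt (Fin n → ℂ) a).symm w) b) (chartAt (Fin n → ℂ) ((chartAt (Fin n → ℂ) a).symm w)
          ((chartAt (Fin n → ℂ) a).symm w)) (mfderiv 𝓘(ℂ, Fin n → ℂ) 𝓘(ℂ, Fin n → ℂ)
          (chartAt (Fin n → ℂ) a).symm w u) = fderiv ℂ (loc n m f a b) w u := fun w hw u => by
      have h2 := loc_comp mdifferentiable_id hf ((chartAt (Fin n → ℂ) a).map_target hw.1)
        (mem_chart_source _ _) hw.2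
      rw [(chartAt (Fin n → ℂ) a).right_inv hw.1, Function.comp_id] at h2
      rw [mfderiv_symm hw.1, h2]
      rfl
    have h2 := (loc_analytic hf ((chartAt (Fin n → ℂ) a).map_target hz.1) hz.2).fderiv
    rw [(chartAt (Fin n → ℂ) a).right_inv hz.1] at h2
    have h3 : AnalyticAt ℂ (fun w => (Pi.basisFun ℂ (Fin m)).det
        fun i => fderiv ℂ (loc n m f a b) w (v i)) z := by
      simp only [Pi.basisFun_det_apply, Matrix.det_apply', Matrix.of_apply]
      refine Finset.analyticAt_fun_sum _ fun σ _ => analyticAt_const.mul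
        (Finset.analyticAt_fun_prod _ fun i _ => ?_)
      exact (((ContinuousLinearMap.proj i : (Fin m → ℂ) →L[ℂ] ℂ).comp
        (ContinuousLinearMap.apply ℂ _ (v (σ i)))).analyticAt _).comp h2
    refine h3.differentiableAt.differentiableWithinAt.congr (fun w hw => ?_) ?_
    · exact congrArg (Pi.basisFun ℂ (Fin m)).det (funext fun i => h1 w hw (v i))
    · exact congrArg (Pi.basisFun ℂ (Fin m)).det (funext fun i => h1 z hz (v i))
  · have h1 := loc_comp hf mdifferentiable_id (mem_chart_source _ x) hx.1 hx.2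
    rw [Function.id_comp] at h1
    refine AlternatingMap.ext fun v => ?_
    simp only [h1]
    exact (Pi.basisFun ℂ (Fin m)).det_comp _ _
  · choose v hv using fun i => hp (Pi.basisFun ℂ (Fin m) i)
    have h1 : (Pi.basisFun ℂ (Fin m)).det (fun i => fderiv ℂ (loc n m f p (f p))
      (chartAt (Fin n → ℂ) p p) (v i)) = 0 := DFunLike.congr_fun h v
    simp only [hv] at h1
    exact one_ne_zero ((Pi.basisFun ℂ (Fin m)).det_self.symm.trans h1)

theorem not_special [CompactSpace X] [ConnectedSpace X] [T2Space Y] (hm : 1 ≤ m)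
    (hf : MDifferentiable 𝓘(ℂ, Fin n → ℂ) 𝓘(ℂ, Fin m → ℂ) f) (hs : Function.Surjective f)
    (hA : Ample m (canonical m Y)) : ¬ Special n X := by
  obtain ⟨p, hp⟩ := (dense_reg hm hf hs).nonempty
  have h1 := LinearMap.finrank_le_finrank_of_surjective
    (f := (fderiv ℂ (loc n m f p (f p)) (chartAt (Fin n → ℂ) p p)).toLinearMap) hp
  rw [Module.finrank_fin_fun, Module.finrank_fin_fun] at h1
  exact fun h => h ⟨m, _, hm, h1, comap_line hf canonical_line,
    le_antisymm (kappa_comap_le hm hf hs canonical_line) (le_kappa_comap hf hp canonical_line hA),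
    maps_comap hf hp⟩

end Vale.Agent.P284
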